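import Mathlib

/-!
Internal definitions for P232.  Points are triples; the torus has side 2 (fundamental box [-1,1]^3),
the cube is `Q = (0,1)^3`.
-/

open MeasureTheory Set
open scoped ENNReal

noncomputable section
namespace Vale.Agent.P232

abbrev P2 := ℝ × ℝ
abbrev P3 := ℝ × ℝ × ℝ

/-- Euclidean length of a triple (the norm of `P3` is the sup norm). -/
def nrm (x : P3) : ℝ := √(x.1 ^ 2 + x.2.1 ^ 2 + x.2.2 ^ 2)
def dot (x y : P3) : ℝ := x.1 * y.1 + x.2.1 * y.2.1 + x.2.2 * y.2.2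
def cross (x y : P3) : P3 :=
  (x.2.1 * y.2.2 - x.2.2 * y.2.1, x.2.2 * y.1 - x.1 * y.2.2, x.1 * y.2.1 - x.2.1 * y.1)
def e1 : P3 := (1, 0, 0)
def e2 : P3 := (0, 1, 0)
def e3 : P3 := (0, 0, 1)
/-- trace of a linear map -/
def trc (M : P3 →L[ℝ] P3) : ℝ := (M e1).1 + (M e2).2.1 + (M e3).2.2
/-- divergence -/
def dv (Z : P3 → P3) (x : P3) : ℝ := trc (fderiv ℝ Z x)
/-- the cofactor matrix of `M` applied to `r` -/
def cofv (M : P3 →L[ℝ] P3) (r : P3) : P3 :=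
  r.1 • cross (M e2) (M e3) + r.2.1 • cross (M e3) (M e1) + r.2.2 • cross (M e1) (M e2)

def Q : Set P3 := Ioo 0 1 ×ˢ Ioo 0 1 ×ˢ Ioo 0 1
def sq : Set P2 := Ioo 0 1 ×ˢ Ioo 0 1
def sqc : Set P2 := Ioc 0 1 ×ˢ Ioc 0 1
def box : Set P3 := Ioo (-1) 1 ×ˢ Ioo (-1) 1 ×ˢ Ioo (-1) 1
def box2 : Set P2 := Ioo (-1) 1 ×ˢ Ioo (-1) 1

/-- cyclic change of coordinates -/
def cyc (x : P3) : P3 := (x.2.1, x.2.2, x.1)
def cycInv (y : P3) : P3 := (y.2.2, y.1, y.2.1)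
/-- `rot E = cyc '' E`: direction 3 of `rot E` is direction 1 of `E`,
direction 3 of `rot (rot E)` is direction 2 of `E`. -/
def rot (E : Set P3) : Set P3 := cycInv ⁻¹' E
/-- point reflection in the centre of the cube, then complement -/
def flip (E : Set P3) : Set P3 := {x | ((1 - x.1, 1 - x.2.1, 1 - x.2.2) : P3) ∉ E}

/-! ### Perimeter bounds -/

def Periodic3 {α : Type*} (Z : P3 → α) : Prop :=
  (∀ x, Z (x + (2, 0, 0)) = Z x) ∧ (∀ x, Z (x + (0, 2, 0)) = Z x) ∧ ∀ x, Z (x + (0, 0, 2)) = Z x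
def Periodic2 {α : Type*} (Z : P2 → α) : Prop :=
  (∀ x, Z (x + (2, 0)) = Z x) ∧ ∀ x, Z (x + (0, 2)) = Z x
/-- measurable 2-periodic set -/
def PerSet (G : Set P3) : Prop := MeasurableSet G ∧ Periodic3 (fun x => x ∈ G)
/-- the perimeter of `G` in the torus of side 2 is at most `c` -/
def PerLe (G : Set P3) (c : ℝ) : Prop :=
  ∀ Z : P3 → P3, ContDiff ℝ 1 Z → (∀ x, nrm (Z x) ≤ 1) → Periodic3 Z → ∫ x in G ∩ box, dv Z x ≤ c
/-- the relative perimeter of `F` in the open cube is at most `c` -/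
def RelLe (F : Set P3) (c : ℝ) : Prop :=
  ∀ Z : P3 → P3, ContDiff ℝ 1 Z → (∀ x, nrm (Z x) ≤ 1) → HasCompactSupport Z → tsupport Z ⊆ Q →
    ∫ x in F ∩ Q, dv Z x ≤ c
def volQ (F : Set P3) : ℝ := (volume (F ∩ Q)).toReal
def volB (G : Set P3) : ℝ := (volume (G ∩ box)).toReal

/-- distance to `2 Z` -/
def d2 (t : ℝ) : ℝ := |t - 2 * (round (t / 2) : ℝ)|
/-- even 2-periodic reflection of a subset of the cube -/
def refl (F : Set P3) : Set P3 := {x | ((d2 x.1, d2 x.2.1, d2 x.2.2) : P3) ∈ F}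
/-- half the length of the vertical section -/
def sec (G : Set P3) (p : P2) : ℝ :=
  (volume {z ∈ Ioo (-1 : ℝ) 1 | ((p.1, p.2, z) : P3) ∈ G}).toReal / 2
/-- Steiner symmetrisation in the third direction -/
def stein (G : Set P3) : Set P3 := {x | d2 x.2.2 < sec G (x.1, x.2.1)}
/-- symmetric decreasing in the third direction -/
def Mono3 (G : Set P3) : Prop :=
  ∀ x y z z' : ℝ, d2 z' ≤ d2 z → ((x, y, z) : P3) ∈ G → ((x, y, z') : P3) ∈ G
/-- difference quotient total variation of a 2-periodic subset of the line -/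
def tv (S : Set ℝ) (ε : ℝ) : ℝ :=
  (∫ z in Ioo (-1 : ℝ) 1, |S.indicator (fun _ => (1 : ℝ)) z - S.indicator (fun _ => (1 : ℝ)) (z + ε)|) / ε

/-- `k` is a nonzero 0-1 vector -/
def KOk (k : P3) : Prop :=
  (k.1 = 0 ∨ k.1 = 1) ∧ (k.2.1 = 0 ∨ k.2.1 = 1) ∧ (k.2.2 = 0 ∨ k.2.2 = 1) ∧ k ≠ 0
/-- balls, tubes and slabs in the torus of side 2 -/
def std (k c : P3) (R : ℝ) : Set P3 :=
  {x | k.1 * d2 (x.1 - c.1) ^ 2 + k.2.1 * d2 (x.2.1 - c.2.1) ^ 2 + k.2.2 * d2 (x.2.2 - c.2.2) ^ 2 < R ^ 2}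
/-- inside the cube, `E` is an octant ball, a quarter cylinder or a slab -/
def IsStd (E : Set P3) : Prop :=
  ∃ k : P3, ∃ R : ℝ, KOk k ∧ 0 < R ∧ R < 1 ∧ ∀ᵐ x ∂(volume.restrict Q), (x ∈ E ↔ x ∈ std k 0 R)

/-- the conjectured relative profile of the unit cube -/
def Jc (v : ℝ) : ℝ :=
  min ((9 * Real.pi / 2) ^ (1 / 3 : ℝ) * (min v (1 - v)) ^ (2 / 3 : ℝ))
    (min (√(Real.pi * min v (1 - v))) 1)

/-! ### Lower sets -/

def LowQ (E : Set P3) : Prop := ∀ x ∈ Q, ∀ y ∈ Q, x ≤ y → y ∈ E → x ∈ E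

structure Adm3 (E : Set P3) : Prop where
  below : ∀ x y z : ℝ, z ≤ 0 → ((x, y, z) : P3) ∈ E → ∃ δ : ℝ, 0 < δ ∧ ((x, y, δ) : P3) ∈ E
  above : ∀ x y z : ℝ, ((x, y, 1) : P3) ∈ E → ((x, y, z) : P3) ∈ E
  trace : ∀ x y x' y' : ℝ, 0 < x' → x' < x → 0 < y' → y' < y →
    (∀ t : ℝ, t < 1 → ((x, y, t) : P3) ∈ E) → ((x', y', 1) : P3) ∈ E

/-- open lower sets of `R^3` that are cylindrical outside the cube -/
structure Adm (E : Set P3) : Prop where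
  lower : IsLowerSet E
  isOpen : IsOpen E
  a3 : Adm3 E
  a1 : Adm3 (rot E)
  a2 : Adm3 (rot (rot E))

/-- planar version -/
structure Adm2 (D : Set P2) : Prop where
  lower : IsLowerSet D
  isOpen : IsOpen D
  belowY : ∀ x y : ℝ, y ≤ 0 → ((x, y) : P2) ∈ D → ∃ δ : ℝ, 0 < δ ∧ ((x, δ) : P2) ∈ D
  aboveY : ∀ x y : ℝ, ((x, 1) : P2) ∈ D → ((x, y) : P2) ∈ D
  belowX : ∀ x y : ℝ, x ≤ 0 → ((x, y) : P2) ∈ D → ∃ δ : ℝ, 0 < δ ∧ ((δ, y) : P2) ∈ D
  aboveX : ∀ x y : ℝ, ((1, y) : P2) ∈ D → ((x, y) : P2) ∈ D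

/-- the canonical extension of a lower subset of the cube -/
def ext (E : Set P3) : Set P3 :=
  {x | ∃ δ : ℝ, 0 < δ ∧ δ < 1 / 2 ∧ ∀ η : ℝ, 0 < η → η < δ →
    ((max δ (min (x.1 + δ) (1 - η)), max δ (min (x.2.1 + δ) (1 - η)),
      max δ (min (x.2.2 + δ) (1 - η))) : P3) ∈ E}

/-- horizontal slice -/
def slice (E : Set P3) (t : ℝ) : Set P2 := {p | ((p.1, p.2, t) : P3) ∈ E}

/-! ### The boundary measure of an admissible set -/

/-- height of the column over `p`, clamped to `[0,1]` -/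
def hgt (E : Set P3) (p : P2) : ℝ :=
  (volume {t ∈ Ioo (0 : ℝ) 1 | ((p.1, p.2, t) : P3) ∈ E}).toReal
/-- columns that meet the boundary -/
def dom (E : Set P3) : Set P2 := slice E 0 \ slice E 1
def mu3 (E : Set P3) : Measure P3 :=
  (volume.restrict (dom E)).map (fun p : P2 => ((p.1, p.2, hgt E p) : P3))
def mu1 (E : Set P3) : Measure P3 := (mu3 (rot E)).map cycInv
def mu2 (E : Set P3) : Measure P3 := (mu3 (rot (rot E))).map cyc
def nu (E : Set P3) : Measure P3 := mu1 E + mu2 E + mu3 E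
/-- the (unnormalised) outer normal, `rho.1 + rho.2.1 + rho.2.2 = 1` a.e. -/
def rho (E : Set P3) (x : P3) : P3 :=
  (((mu1 E).rnDeriv (nu E) x).toReal, ((mu2 E).rnDeriv (nu E) x).toReal,
    ((mu3 E).rnDeriv (nu E) x).toReal)
/-- area density with respect to `nu` -/
def wt (E : Set P3) (x : P3) : ℝ := nrm (rho E x)
def area (E : Set P3) : ℝ := ∫ x in Q, wt E x ∂(nu E)
/-- `∫ n_3^2` over the surface -/
def mm (E : Set P3) : ℝ := ∫ x in Q, (rho E x).2.2 ^ 2 / wt E x ∂(nu E)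

/-! planar analogue -/
def hy (D : Set P2) (x : ℝ) : ℝ := (volume {t ∈ Ioo (0 : ℝ) 1 | ((x, t) : P2) ∈ D}).toReal
def domy (D : Set P2) : Set ℝ := {x | ((x, 0) : P2) ∈ D ∧ ((x, 1) : P2) ∉ D}
def sig2 (D : Set P2) : Measure P2 :=
  (volume.restrict (domy D)).map (fun x : ℝ => ((x, hy D x) : P2))
def sig1 (D : Set P2) : Measure P2 := (sig2 (Prod.swap ⁻¹' D)).map Prod.swap
def sig (D : Set P2) : Measure P2 := sig1 D + sig2 D
def rr (D : Set P2) (p : P2) : P2 :=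
  (((sig1 D).rnDeriv (sig D) p).toReal, ((sig2 D).rnDeriv (sig D) p).toReal)
def ww (D : Set P2) (p : P2) : ℝ := √((rr D p).1 ^ 2 + (rr D p).2 ^ 2)
/-- integral of `ψ` along the boundary arc of `D` in the half-open square -/
def arc (D : Set P2) (ψ : P2 → ℝ) : ℝ := ∫ p in sqc, ψ p * ww D p ∂(sig D)
/-- the same in the open square -/
def arcO (D : Set P2) (ψ : P2 → ℝ) : ℝ := ∫ p in sq, ψ p * ww D p ∂(sig D)
def len (D : Set P2) : ℝ := arc D (fun _ => 1)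
def ar (D : Set P2) : ℝ := (volume (D ∩ sq)).toReal

def aa (E : Set P3) : ℝ := ar (slice E 0)
def bb (E : Set P3) : ℝ := ar (slice E 1)
def LL (E : Set P3) : ℝ := len (slice E 0)
def ll (E : Set P3) : ℝ := len (slice E 1)

/-! ### First variation -/

/-- first variation of the area density under a deformation with gradient `M` -/
def dA (M : P3 →L[ℝ] P3) (r : P3) : ℝ := trc M * nrm r - dot r (M r) / nrm r
/-- the same for the vertical field `φ e3`, `M` the gradient of `φ` -/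
def dA3 (M : P3 →L[ℝ] ℝ) (r : P3) : ℝ := M e3 * nrm r - r.2.2 * M r / nrm r
def wInt (E : Set P3) (X : P3 → P3) : ℝ := ∫ x in Q, dot (X x) (rho E x) ∂(nu E)
def zInt (E : Set P3) (X : P3 → P3) : ℝ := ∫ x in Q, dA (fderiv ℝ X x) (rho E x) ∂(nu E)
def w3 (E : Set P3) (φ : P3 → ℝ) : ℝ := ∫ x in Q, φ x * (rho E x).2.2 ∂(nu E)
def z3i (E : Set P3) (φ : P3 → ℝ) : ℝ := ∫ x in Q, dA3 (fderiv ℝ φ x) (rho E x) ∂(nu E)
def z3 (E : Set P3) (φ : P3 → ℝ) : ℝ :=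
  z3i E φ + arc (slice E 0) (fun p => φ (p.1, p.2, 0)) - arc (slice E 1) (fun p => φ (p.1, p.2, 1))

/-- `E` is minimal to first order against all competitors, with one-sided slopes `lo ≤ hi` -/
def Stat (E : Set P3) (lo hi : ℝ) : Prop :=
  ∀ δ : ℝ, 0 < δ → ∃ r : ℝ, 0 < r ∧ ∀ (F : Set P3) (c : ℝ), MeasurableSet F →
    |volQ F - volQ E| < r → RelLe F c →
      area E + min (lo * (volQ F - volQ E)) (hi * (volQ F - volQ E)) - δ * |volQ F - volQ E| ≤ c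

structure Crit3 (E : Set P3) (h : ℝ) : Prop where
  fv : ∀ φ : P3 → ℝ, ContDiff ℝ 2 φ → h * w3 E φ = z3 E φ
  edge : arcO (slice E 0) (fun _ => 1) = LL E

/-- weak constant mean curvature `h` with orthogonal contact -/
def Crit (E : Set P3) (h : ℝ) : Prop := Crit3 E h ∧ Crit3 (rot E) h ∧ Crit3 (rot (rot E)) h

/-! ### Rotations and the planar connection -/

def rot1 (θ : ℝ) (V : P3) : P3 :=
  (V.1, Real.cos θ * V.2.1 - Real.sin θ * V.2.2, Real.sin θ * V.2.1 + Real.cos θ * V.2.2)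
def rot2 (θ : ℝ) (V : P3) : P3 :=
  (Real.cos θ * V.1 + Real.sin θ * V.2.2, V.2.1, -Real.sin θ * V.1 + Real.cos θ * V.2.2)
def rot3 (θ : ℝ) (V : P3) : P3 :=
  (Real.cos θ * V.1 - Real.sin θ * V.2.1, Real.sin θ * V.1 + Real.cos θ * V.2.1, V.2.2)

/-- projection along the diagonal -/
def pl (x : P3) : P2 := (x.1 - x.2.2, x.2.1 - x.2.2)
/-- the boundary point of `E` on the line `pl ⁻¹ p` -/
def Sf (E : Set P3) (p : P2) : P3 :=
  (p.1 + sSup {t : ℝ | ((p.1 + t, p.2 + t, t) : P3) ∈ E},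
    p.2 + sSup {t : ℝ | ((p.1 + t, p.2 + t, t) : P3) ∈ E},
    sSup {t : ℝ | ((p.1 + t, p.2 + t, t) : P3) ∈ E})
/-- the region outside the two faces normal to `e3` -/
def out3 : Set P3 := {x | (x.2.2 < 0 ∨ 1 < x.2.2) ∧ ((x.1, x.2.1) : P2) ∈ sqc}
def out1 : Set P3 := cyc ⁻¹' out3
def out2 : Set P3 := cycInv ⁻¹' out3
def kk (E : Set P3) (x : P3) : ℝ := (out1 ∪ out2 ∪ out3).indicator (wt E) x
def etaU (E : Set P3) (x : P3) : P3 :=
  Q.indicator (fun x => (wt E x)⁻¹ •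
      cross (rho E x) (1 - (rho E x).1, -(rho E x).1, -(rho E x).1)) x
    + out2.indicator (fun x => wt E x • e2) x - out3.indicator (fun x => wt E x • e3) x
def etaW (E : Set P3) (x : P3) : P3 :=
  Q.indicator (fun x => (wt E x)⁻¹ •
      cross (rho E x) (-(rho E x).2.1, 1 - (rho E x).2.1, -(rho E x).2.1)) x
    + out3.indicator (fun x => wt E x • e3) x - out1.indicator (fun x => wt E x • e1) x

/-- weak flatness `∂₁ η₂ - ∂₂ η₁ = h η₁ × η₂` -/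
def WeakFlat (η₁ η₂ : P2 → P3) (h : ℝ) : Prop :=
  ∀ χ : P2 → ℝ, ContDiff ℝ 2 χ → HasCompactSupport χ →
    ∫ p, (fderiv ℝ χ p (0, 1) • η₁ p - fderiv ℝ χ p (1, 0) • η₂ p)
      = h • ∫ p, χ p • cross (η₁ p) (η₂ p)

def strip1 : Set P2 := {p | |p.2| < 1}
def strip2 : Set P2 := {p | |p.1| < 1}
def strip3 : Set P2 := {p | |p.1 - p.2| < 1}

/-- far field of the connection: three strips with six ends of widths `L1 l1 L2 l2 L3 l3` -/
structure FarField (η₁ η₂ : P2 → P3) (k : P2 → ℝ) (L1 l1 L2 l2 L3 l3 : ℝ) : Prop where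
  meas : Measurable k
  bdd : ∃ M : ℝ, ∀ᵐ p : P2, |k p| ≤ M
  far : ∀ᵐ p : P2, (2 ≤ |p.1| ∨ 2 ≤ |p.2|) →
    η₁ p = strip2.indicator (fun p => k p • e2) p - strip3.indicator (fun p => k p • e3) p ∧
    η₂ p = strip3.indicator (fun p => k p • e3) p - strip1.indicator (fun p => k p • e1) p
  int : ∀ θ : ℝ → ℝ, Continuous θ → HasCompactSupport θ →
    (tsupport θ ⊆ Ioi 3 →
      (∫ p in strip1, θ p.1 * k p = (∫ t, θ t) * l1) ∧ (∫ p in strip2, θ p.2 * k p = (∫ t, θ t) * l2) ∧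
      (∫ p in strip3, θ p.1 * k p = (∫ t, θ t) * L3)) ∧
    (tsupport θ ⊆ Iio (-3) →
      (∫ p in strip1, θ p.1 * k p = (∫ t, θ t) * L1) ∧ (∫ p in strip2, θ p.2 * k p = (∫ t, θ t) * L2) ∧
      (∫ p in strip3, θ p.1 * k p = (∫ t, θ t) * l3))

/-! ### Regimes -/

def v1 : ℝ := 4 * Real.pi / 81

/-- the admissible triples (volume, area, multiplier) outside the ball regime -/
def Reg (v A h : ℝ) : Prop :=
  (v = v1 ∧ A ≤ 2 * Real.pi / 9 ∧ A ≤ 2 * h * v ∧ 3 * h * v ≤ 2 * A) ∨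
  (v1 ≤ v ∧ v ≤ 1 / Real.pi ∧ A = 2 * h * v ∧ A ^ 2 ≤ Real.pi * v) ∨
  (v = 1 / Real.pi ∧ 0 ≤ h ∧ 2 * h * v ≤ A ∧ A ≤ 1) ∨
  (1 / Real.pi ≤ v ∧ v ≤ 1 / 2 ∧ h = 0 ∧ A ≤ 1)

/-- the ball regime -/
def RegB (v A h : ℝ) : Prop := v ≤ v1 ∧ 2 * A ≤ 3 * h * v ∧ h ^ 2 * v < Real.pi

end Vale.Agent.P232
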